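import Vale.Agent.P352.H283.Line
import Vale.Agent.P352.H467.Tf

/-!
# P352 (helper283): functionals which vanish on derivatives

`exists_const`: a linear functional on the test functions of the half space `{0 < y 3}` which
vanishes on all derivatives `∂_j G` is a multiple of the integral (no continuity is assumed).
`zero_even`: a linear functional which vanishes on `∂_1 G`, `∂_2 G` and is odd under
`(y 1, y 2) ↦ (-y 1, -y 2)` is zero.
-/

open MeasureTheory Set Function Filter Topology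
open scoped ContDiff Convolution

noncomputable section

namespace Vale.Agent.P352.H283

open H467 (M4 Tf)

/-- the half space -/
abbrev HS : Set M4 := {y | 0 < y 3}

/-- the coordinate directions -/
abbrev ee (j : Fin 4) : M4 := EuclideanSpace.single j 1

theorem ee_ne (j : Fin 4) : ee j ≠ 0 := by
  intro h
  have := congrFun (congrArg (fun v : M4 => (v : Fin 4 → ℝ)) h) j
  simp [ee] at this

theorem ee_same (j : Fin 4) : ee j j = 1 := by simp [ee]

theorem ee_other {i j : Fin 4} (h : i ≠ j) : ee j i = 0 := by simp [ee, h]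

theorem add_smul_same (y : M4) (t : ℝ) (j : Fin 4) : (y + t • ee j) j = y j + t := by
  simp [ee]

theorem add_smul_other (y : M4) (t : ℝ) {i j : Fin 4} (h : i ≠ j) : (y + t • ee j) i = y i := by
  simp [ee, h]

theorem isOpen_HS : IsOpen HS := isOpen_lt continuous_const (by fun_prop)

theorem convex_HS : Convex ℝ HS := by
  intro x hx y hy a b ha hb hab
  simp only [mem_ofPred_eq] at hx hy ⊢
  have e : (a • x + b • y) 3 = a * x 3 + b * y 3 := by simp
  rw [e]
  rcases ha.eq_or_lt with h | h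
  · have : b = 1 := by linarith
    subst h; subst this; simpa using hy
  · have := mul_pos h hx
    have := mul_nonneg hb hy.le
    linarith

/-- a criterion for `Tf` -/
theorem tf_of_subset {O : Set M4} {G : M4 → ℂ} (hG : ContDiff ℝ ∞ G) {K : Set M4}
    (hK : IsCompact K) (hKO : K ⊆ O) (h : Function.support G ⊆ K) : Tf O G := by
  have h1 : tsupport G ⊆ K := closure_minimal h hK.isClosed
  exact ⟨hG, HasCompactSupport.of_support_subset_isCompact hK h, h1.trans hKO⟩

theorem tf_add {O : Set M4} {G G' : M4 → ℂ} (hG : Tf O G) (hG' : Tf O G') : Tf O (G + G') := by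
  refine tf_of_subset (hG.1.add hG'.1) (hG.2.1.isCompact.union hG'.2.1.isCompact)
    (union_subset hG.2.2 hG'.2.2) ?_
  intro y hy
  by_contra hcon
  rw [mem_union, not_or] at hcon
  exact hy (by simp [image_eq_zero_of_notMem_tsupport hcon.1,
    image_eq_zero_of_notMem_tsupport hcon.2])

theorem tf_smul {O : Set M4} {G : M4 → ℂ} (c : ℂ) (hG : Tf O G) : Tf O (c • G) := by
  refine tf_of_subset (hG.1.const_smul c) hG.2.1.isCompact hG.2.2 ?_
  intro y hy
  by_contra hcon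
  exact hy (by simp [image_eq_zero_of_notMem_tsupport hcon])

/-- **the primitive in the direction `e_j`** -/
theorem exists_prim {j : Fin 4} {H : M4 → ℂ} (hH : Tf HS H)
    (h0 : ∀ y, lin volume (ee j) H y = 0) :
    ∃ A : M4 → ℂ, Tf HS A ∧ (fun y => fderiv ℝ A y (ee j)) = H := by
  have he := ee_ne j
  set J : M4 → ℂ := lin (volume.restrict (Ioi 0)) (ee j) H with hJ
  have hJs : ContDiff ℝ ∞ J := contDiff_lin _ he hH.1 hH.2.1
  refine ⟨fun y => -J y, ?_, ?_⟩
  · set f : (M4 × M4) × ℝ × ℝ → M4 := fun p => p.2.1 • p.1.1 + p.2.2 • p.1.2 with hf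
    set S : Set (ℝ × ℝ) := {p | 0 ≤ p.1 ∧ 0 ≤ p.2 ∧ p.1 + p.2 = 1} with hS
    have hSc : IsCompact S := by
      refine (isCompact_Icc (a := ((0 : ℝ), (0 : ℝ))) (b := (1, 1))).of_isClosed_subset ?_ ?_
      · exact (isClosed_le continuous_const continuous_fst).inter
          ((isClosed_le continuous_const continuous_snd).inter
            (isClosed_eq (continuous_fst.add continuous_snd) continuous_const))
      · rintro ⟨a, b⟩ ⟨h1, h2, h3⟩
        simp only at h1 h2 h3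
        exact ⟨⟨h1, h2⟩, ⟨by simp only; linarith, by simp only; linarith⟩⟩
    have hK : IsCompact (f '' ((tsupport H ×ˢ tsupport H) ×ˢ S)) :=
      ((hH.2.1.isCompact.prod hH.2.1.isCompact).prod hSc).image (by rw [hf]; fun_prop)
    refine tf_of_subset hJs.neg hK ?_ ?_
    · rintro _ ⟨⟨⟨z, w⟩, a, b⟩, ⟨⟨hz, hw⟩, h1, h2, h3⟩, rfl⟩
      exact convex_HS (hH.2.2 hz) (hH.2.2 hw) h1 h2 h3
    intro y hy
    have hy1 : J y ≠ 0 := fun h => hy (by simp [h])
    -- a point on the right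
    obtain ⟨t, ht0, ht⟩ : ∃ t : ℝ, 0 < t ∧ H (y + t • ee j) ≠ 0 := by
      by_contra hcon
      push Not at hcon
      apply hy1
      rw [hJ, lin]
      exact setIntegral_eq_zero_of_forall_eq_zero fun t ht => hcon t ht
    -- a point on the left
    obtain ⟨s, hs0, hs⟩ : ∃ s : ℝ, s ≤ 0 ∧ H (y + s • ee j) ≠ 0 := by
      by_contra hcon
      push Not at hcon
      apply hy1
      have h1 := h0 y
      obtain ⟨hcont, hcs⟩ := comp_line he hH.1.continuous hH.2.1 y
      have hint : Integrable (fun t : ℝ => H (y + t • ee j)) :=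
        hcont.integrable_of_hasCompactSupport hcs
      have h2 : ∫ t in Iic (0 : ℝ), H (y + t • ee j) = 0 :=
        setIntegral_eq_zero_of_forall_eq_zero fun t ht => hcon t ht
      rw [lin, ← setIntegral_univ, ← Iic_union_Ioi (a := (0 : ℝ)),
        setIntegral_union (Iic_disjoint_Ioi le_rfl) measurableSet_Ioi hint.integrableOn
          hint.integrableOn, h2, zero_add] at h1
      exact h1
    have hts : 0 < t - s := by linarith
    refine ⟨((y + t • ee j, y + s • ee j), -s / (t - s), t / (t - s)),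
      ⟨⟨subset_tsupport _ ht, subset_tsupport _ hs⟩, div_nonneg (by linarith) hts.le,
        div_nonneg ht0.le hts.le, by simp only; field_simp; ring⟩, ?_⟩
    simp only [hf]
    have e : (-s / (t - s)) • (y + t • ee j) + (t / (t - s)) • (y + s • ee j) = y := by
      have e1 : (-s / (t - s)) • (y + t • ee j) + (t / (t - s)) • (y + s • ee j)
          = ((-s / (t - s)) + (t / (t - s))) • y
            + ((-s / (t - s)) * t + (t / (t - s)) * s) • ee j := by
        module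
      rw [e1]
      have e2 : (-s / (t - s)) + (t / (t - s)) = 1 := by field_simp; ring
      have e3 : (-s / (t - s)) * t + (t / (t - s)) * s = 0 := by field_simp; ring
      rw [e2, e3]
      simp
    exact e
  · funext y
    have h1 : fderiv ℝ (fun y => -J y) y = -fderiv ℝ J y := by
      simp
    rw [h1]
    have := hasFDerivAt_half he hH.1 hH.2.1 y
    simp only [neg_apply]
    rw [hJ, this, neg_neg]

/-- the averaging operator in the direction `e_j` -/
def av (ρ : ℝ → ℝ) (j : Fin 4) (G : M4 → ℂ) (y : M4) : ℂ := (ρ (y j) : ℂ) * lin volume (ee j) G y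

theorem tf_av {ρ : ℝ → ℝ} (hρ : ContDiff ℝ ∞ ρ) (hρc : HasCompactSupport ρ) {j : Fin 4}
    (hρ3 : j = 3 → ∀ t, ρ t ≠ 0 → t ∈ Icc (1 / 4 : ℝ) 4) {G : M4 → ℂ} (hG : Tf HS G) :
    Tf HS (av ρ j G) := by
  -- the compact set
  set S : Set ℝ := if j = 3 then Icc (1 / 4 : ℝ) 4 else tsupport ρ with hS
  have hSc : IsCompact S := by
    rw [hS]; split_ifs
    · exact isCompact_Icc
    · exact hρc.isCompact
  have hSρ : ∀ t, ρ t ≠ 0 → t ∈ S := by
    intro t ht
    rw [hS]; split_ifs with h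
    · exact hρ3 h t ht
    · exact subset_tsupport _ ht
  set f : M4 × ℝ → M4 := fun p => p.1 + (p.2 - p.1 j) • ee j with hf
  have hfc : Continuous f := by
    rw [hf]
    fun_prop
  have hK : IsCompact (f '' (tsupport G ×ˢ S)) := (hG.2.1.isCompact.prod hSc).image hfc
  refine tf_of_subset ?_ hK ?_ ?_
  · have h1 : ContDiff ℝ ∞ (fun y : M4 => ((ρ (y j) : ℝ) : ℂ)) := by
      have : ContDiff ℝ ∞ (fun y : M4 => ρ (y j)) := hρ.comp (by fun_prop)
      exact Complex.ofRealCLM.contDiff.comp this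
    exact h1.mul (contDiff_lin _ (ee_ne j) hG.1 hG.2.1)
  · rintro _ ⟨⟨z, s⟩, ⟨hz, hs⟩, rfl⟩
    simp only [hf, mem_ofPred_eq]
    by_cases h : j = 3
    · subst h
      rw [add_smul_same]
      simp only [hS, if_true] at hs
      have := hs.1
      linarith
    · rw [add_smul_other _ _ (Ne.symm h)]
      exact hG.2.2 hz
  · intro y hy
    have hy' : (ρ (y j) : ℂ) ≠ 0 ∧ lin volume (ee j) G y ≠ 0 := by
      rw [Function.mem_support, av] at hy
      exact ⟨left_ne_zero_of_mul hy, right_ne_zero_of_mul hy⟩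
    obtain ⟨t, ht⟩ : ∃ t : ℝ, G (y + t • ee j) ≠ 0 := by
      by_contra hcon
      push Not at hcon
      exact hy'.2 (by simp [lin, hcon])
    refine ⟨(y + t • ee j, y j), ⟨subset_tsupport _ ht, hSρ _ (by exact_mod_cast hy'.1)⟩, ?_⟩
    simp only [hf]
    rw [add_smul_same, add_assoc, ← add_smul]
    have : t + (y j - (y j + t)) = 0 := by ring
    rw [this, zero_smul, add_zero]

theorem lin_av {ρ : ℝ → ℝ} (hρi : ∫ t, ρ t = 1) (j : Fin 4) (G : M4 → ℂ) (y : M4) :
    lin volume (ee j) (av ρ j G) y = lin volume (ee j) G y := by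
  have h1 : ∀ t : ℝ, av ρ j G (y + t • ee j) = (ρ (y j + t) : ℂ) * lin volume (ee j) G y := by
    intro t
    rw [av, add_smul_same, lin_shift]
  have h2 : ∫ t : ℝ, (ρ (y j + t) : ℂ) = 1 := by
    have h3 : ∫ t : ℝ, (ρ (t + y j) : ℂ) = ∫ t : ℝ, (ρ t : ℂ) :=
      integral_add_right_eq_self (fun t => (ρ t : ℂ)) (y j)
    simp only [add_comm (y j)]
    rw [h3, integral_complex_ofReal, hρi, Complex.ofReal_one]
  conv_lhs => rw [lin]
  simp only [h1]
  rw [integral_mul_const, h2, one_mul]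

/-- **one averaging step** -/
theorem step {L : (M4 → ℂ) → ℂ}
    (hadd : ∀ G G', Tf HS G → Tf HS G' → L (G + G') = L G + L G') {j : Fin 4}
    (hder : ∀ G, Tf HS G → L (fun y => fderiv ℝ G y (ee j)) = 0)
    {ρ : ℝ → ℝ} (hρ : ContDiff ℝ ∞ ρ) (hρc : HasCompactSupport ρ) (hρi : ∫ t, ρ t = 1)
    (hρ3 : j = 3 → ∀ t, ρ t ≠ 0 → t ∈ Icc (1 / 4 : ℝ) 4) {G : M4 → ℂ} (hG : Tf HS G) :
    L G = L (av ρ j G) := by
  have h1 : Tf HS (av ρ j G) := tf_av hρ hρc hρ3 hG
  set H : M4 → ℂ := G + (-1 : ℂ) • av ρ j G with hH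
  have h2 : Tf HS H := tf_add hG (tf_smul _ h1)
  have h3 : ∀ y, lin volume (ee j) H y = 0 := by
    intro y
    have hi : ∀ {F : M4 → ℂ}, Tf HS F → Integrable (fun t : ℝ => F (y + t • ee j)) := by
      intro F hF
      obtain ⟨hcont, hcs⟩ := comp_line (ee_ne j) hF.1.continuous hF.2.1 y
      exact hcont.integrable_of_hasCompactSupport hcs
    have h4 : lin volume (ee j) H y
        = lin volume (ee j) G y - lin volume (ee j) (av ρ j G) y := by
      rw [lin, lin, lin, ← integral_sub (hi hG) (hi h1)]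
      congr 1
      funext t
      simp [hH, sub_eq_add_neg]
    rw [h4, lin_av hρi, sub_self]
  obtain ⟨A, hA, hAH⟩ := exists_prim h2 h3
  have h5 : L H = 0 := by rw [← hAH]; exact hder A hA
  have h6 : G = H + av ρ j G := by
    rw [hH]; funext y; simp
  rw [h6, hadd H _ h2 h1, h5, zero_add, ← h6]

/-- invariance in the direction `e_j` -/
def Inv (j : Fin 4) (F : M4 → ℂ) : Prop := ∀ y : M4, ∀ s : ℝ, F (y + s • ee j) = F y

theorem inv_lin (j : Fin 4) (G : M4 → ℂ) : Inv j (lin volume (ee j) G) :=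
  fun _ _ => lin_shift _ _ _ _

theorem inv_lin_of {i : Fin 4} {F : M4 → ℂ} (hF : Inv i F) (j : Fin 4) :
    Inv i (lin volume (ee j) F) := by
  intro y s
  unfold lin
  have h : ∀ t : ℝ, F (y + s • ee i + t • ee j) = F (y + t • ee j) := by
    intro t
    rw [show y + s • ee i + t • ee j = (y + t • ee j) + s • ee i by abel]
    exact hF _ _
  simp only [h]

/-- averaging of a product -/
theorem av_prod {ρ : ℝ → ℝ} {j : Fin 4} {R : M4 → ℂ} (hR : Inv j R) (F : M4 → ℂ) :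
    av ρ j (fun y => R y * F y) = fun y => ((ρ (y j) : ℂ) * R y) * lin volume (ee j) F y := by
  funext y
  have h : lin volume (ee j) (fun y => R y * F y) y = R y * lin volume (ee j) F y := by
    unfold lin
    have h1 : ∀ t : ℝ, R (y + t • ee j) = R y := fun t => hR _ _
    simp only [h1]
    rw [integral_const_mul]
  rw [av, h]
  ring

theorem inv_coord (ρ : ℝ → ℝ) {i j : Fin 4} (h : i ≠ j) :
    Inv j (fun y : M4 => (ρ (y i) : ℂ)) := by
  intro y s
  simp only [add_smul_other y s h]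

theorem inv_mul {j : Fin 4} {F F' : M4 → ℂ} (hF : Inv j F) (hF' : Inv j F') :
    Inv j (fun y => F y * F' y) := by
  intro y s
  simp only [hF y s, hF' y s]

theorem sum_ee (y : M4) : y = 0 + y 0 • ee 0 + y 1 • ee 1 + y 2 • ee 2 + y 3 • ee 3 := by
  ext i
  fin_cases i <;> simp [ee]

/-- a normalised bump function supported in `[1/2, 3/2]` -/
theorem exists_bump_one : ∃ ρ : ℝ → ℝ, ContDiff ℝ ∞ ρ ∧ HasCompactSupport ρ ∧ ∫ t, ρ t = 1 ∧
    (∀ t, ρ t ≠ 0 → t ∈ Icc (1 / 4 : ℝ) 4) ∧ (∀ t, 0 ≤ ρ t) ∧ ρ 1 ≠ 0 := by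
  let f : ContDiffBump (1 : ℝ) := ⟨1 / 4, 1 / 2, by norm_num, by norm_num⟩
  refine ⟨f.normed volume, f.contDiff_normed (n := ⊤), f.hasCompactSupport_normed,
    f.integral_normed, ?_, f.nonneg_normed, ?_⟩
  · intro t ht
    have h1 : t ∈ Function.support (f.normed volume) := ht
    rw [f.support_normed_eq, Metric.mem_ball, Real.dist_eq] at h1
    have h2 : |t - 1| < 1 / 2 := h1
    rw [abs_lt] at h2
    exact ⟨by linarith [h2.1], by linarith [h2.2]⟩
  · have h1 : (1 : ℝ) ∈ Function.support (f.normed volume) := by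
      rw [f.support_normed_eq, Metric.mem_ball, dist_self]
      exact f.rOut_pos
    exact h1

/-- an even normalised bump function -/
theorem exists_bump_even : ∃ ρ : ℝ → ℝ, ContDiff ℝ ∞ ρ ∧ HasCompactSupport ρ ∧ ∫ t, ρ t = 1 ∧
    ∀ t, ρ (-t) = ρ t := by
  let f : ContDiffBump (0 : ℝ) := ⟨1 / 4, 1 / 2, by norm_num, by norm_num⟩
  exact ⟨f.normed volume, f.contDiff_normed (n := ⊤), f.hasCompactSupport_normed,
    f.integral_normed, f.normed_neg⟩

theorem tf_theta {ρ : ℝ → ℝ} (hρ : ContDiff ℝ ∞ ρ)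
    (hρ3 : ∀ t, ρ t ≠ 0 → t ∈ Icc (1 / 4 : ℝ) 4) :
    Tf HS (fun y : M4 => (ρ (y 0) : ℂ) * ((ρ (y 1) : ℂ) * ((ρ (y 2) : ℂ) * (ρ (y 3) : ℂ)))) := by
  set K : Set M4 := {y | ∀ j, y j ∈ Icc (1 / 4 : ℝ) 4} with hK
  have hKc : IsCompact K := by
    have h1 : IsCompact (Set.univ.pi fun _ : Fin 4 => Icc (1 / 4 : ℝ) 4) :=
      isCompact_univ_pi fun _ => isCompact_Icc
    have h2 : K = (EuclideanSpace.equiv (Fin 4) ℝ) ⁻¹' (Set.univ.pi fun _ => Icc (1 / 4 : ℝ) 4) := by
      ext y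
      simp only [hK, Set.mem_preimage, Set.mem_univ_pi]
      rfl
    rw [h2]
    exact (EuclideanSpace.equiv (Fin 4) ℝ).toHomeomorph.isCompact_preimage.2 h1
  refine tf_of_subset ?_ hKc ?_ ?_
  · have h1 : ∀ j : Fin 4, ContDiff ℝ ∞ (fun y : M4 => ((ρ (y j) : ℝ) : ℂ)) := fun j => by
      have : ContDiff ℝ ∞ (fun y : M4 => ρ (y j)) := hρ.comp (by fun_prop)
      exact Complex.ofRealCLM.contDiff.comp this
    exact (h1 0).mul ((h1 1).mul ((h1 2).mul (h1 3)))
  · intro y hy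
    have := (hy 3).1
    simp only [mem_ofPred_eq]
    linarith
  · intro y hy
    rw [Function.mem_support] at hy
    have a0 := left_ne_zero_of_mul hy
    have b0 := right_ne_zero_of_mul hy
    have a1 := left_ne_zero_of_mul b0
    have b1 := right_ne_zero_of_mul b0
    have a2 := left_ne_zero_of_mul b1
    have a3 := right_ne_zero_of_mul b1
    have c0 : ρ (y 0) ≠ 0 := by exact_mod_cast a0
    have c1 : ρ (y 1) ≠ 0 := by exact_mod_cast a1
    have c2 : ρ (y 2) ≠ 0 := by exact_mod_cast a2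
    have c3 : ρ (y 3) ≠ 0 := by exact_mod_cast a3
    intro j
    fin_cases j
    · exact hρ3 _ c0
    · exact hρ3 _ c1
    · exact hρ3 _ c2
    · exact hρ3 _ c3

theorem tf_integrable {O : Set M4} {G : M4 → ℂ} (hG : Tf O G) : Integrable G :=
  hG.1.continuous.integrable_of_hasCompactSupport hG.2.1

theorem integral_deriv_zero {O : Set M4} {G : M4 → ℂ} (hG : Tf O G) (v : M4) :
    ∫ y, fderiv ℝ G y v = 0 := by
  have hd : Differentiable ℝ G := hG.1.differentiable (by simp)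
  have hc : Continuous (fun y => fderiv ℝ G y v) :=
    (hG.1.continuous_fderiv (by simp)).clm_apply continuous_const
  have hs : HasCompactSupport (fun y => fderiv ℝ G y v) :=
    (hG.2.1.fderiv (𝕜 := ℝ)).comp_left (g := fun A : M4 →L[ℝ] ℂ => A v) (by simp)
  have hi : Integrable (fun y => fderiv ℝ G y v) := hc.integrable_of_hasCompactSupport hs
  have h := integral_mul_fderiv_eq_neg_fderiv_mul_of_integrable (𝕜 := ℂ)
    (f := fun _ : M4 => (1 : ℂ)) (g := G) (v := v) (μ := volume)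
    (by simp) (by simpa using hi) (by simpa using tf_integrable hG)
    (fun x _ => differentiableAt_const _) (fun x _ => hd x)
  simpa using h

/-- the reduction of a test function to a multiple of the standard one -/
theorem reduce {ρ : ℝ → ℝ} (hρ : ContDiff ℝ ∞ ρ) (hρc : HasCompactSupport ρ)
    (hρi : ∫ t, ρ t = 1) (hρ3 : ∀ t, ρ t ≠ 0 → t ∈ Icc (1 / 4 : ℝ) 4) {G : M4 → ℂ}
    (hG : Tf HS G) : ∃ c : ℂ, ∀ L : (M4 → ℂ) → ℂ,
      (∀ G G', Tf HS G → Tf HS G' → L (G + G') = L G + L G') →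
      (∀ (j : Fin 4) G, Tf HS G → L (fun y => fderiv ℝ G y (ee j)) = 0) →
      L G = L (c • fun y : M4 =>
        (ρ (y 0) : ℂ) * ((ρ (y 1) : ℂ) * ((ρ (y 2) : ℂ) * (ρ (y 3) : ℂ)))) := by
  set F3 : M4 → ℂ := lin volume (ee 3) G with hF3
  set F2 : M4 → ℂ := lin volume (ee 2) F3 with hF2
  set F1 : M4 → ℂ := lin volume (ee 1) F2 with hF1
  set F0 : M4 → ℂ := lin volume (ee 0) F1 with hF0
  have i33 : Inv 3 F3 := inv_lin 3 G
  have i32 : Inv 3 F2 := inv_lin_of i33 2
  have i22 : Inv 2 F2 := inv_lin 2 F3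
  have i31 : Inv 3 F1 := inv_lin_of i32 1
  have i21 : Inv 2 F1 := inv_lin_of i22 1
  have i11 : Inv 1 F1 := inv_lin 1 F2
  have i30 : Inv 3 F0 := inv_lin_of i31 0
  have i20 : Inv 2 F0 := inv_lin_of i21 0
  have i10 : Inv 1 F0 := inv_lin_of i11 0
  have i00 : Inv 0 F0 := inv_lin 0 F1
  have hconst : ∀ y, F0 y = F0 0 := by
    intro y
    rw [sum_ee y, i30, i20, i10, i00]
  refine ⟨F0 0, fun L hadd hder => ?_⟩
  have hρ3' : ∀ j : Fin 4, j = 3 → ∀ t, ρ t ≠ 0 → t ∈ Icc (1 / 4 : ℝ) 4 := fun _ _ => hρ3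
  have t3 : Tf HS (av ρ 3 G) := tf_av hρ hρc (hρ3' 3) hG
  have t2 : Tf HS (av ρ 2 (av ρ 3 G)) := tf_av hρ hρc (hρ3' 2) t3
  have t1 : Tf HS (av ρ 1 (av ρ 2 (av ρ 3 G))) := tf_av hρ hρc (hρ3' 1) t2
  have e3 : av ρ 3 G = fun y => (ρ (y 3) : ℂ) * F3 y := rfl
  have e2 : av ρ 2 (av ρ 3 G) = fun y => ((ρ (y 2) : ℂ) * (ρ (y 3) : ℂ)) * F2 y := by
    rw [e3, av_prod (inv_coord ρ (by decide)) F3]
  have e1 : av ρ 1 (av ρ 2 (av ρ 3 G))
      = fun y => ((ρ (y 1) : ℂ) * ((ρ (y 2) : ℂ) * (ρ (y 3) : ℂ))) * F1 y := by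
    rw [e2, av_prod (inv_mul (inv_coord ρ (by decide)) (inv_coord ρ (by decide))) F2]
  have e0 : av ρ 0 (av ρ 1 (av ρ 2 (av ρ 3 G)))
      = fun y => ((ρ (y 0) : ℂ) * ((ρ (y 1) : ℂ) * ((ρ (y 2) : ℂ) * (ρ (y 3) : ℂ)))) * F0 y := by
    rw [e1, av_prod (inv_mul (inv_coord ρ (by decide))
      (inv_mul (inv_coord ρ (by decide)) (inv_coord ρ (by decide)))) F1]
  rw [step hadd (hder 3) hρ hρc hρi (hρ3' 3) hG, step hadd (hder 2) hρ hρc hρi (hρ3' 2) t3,
    step hadd (hder 1) hρ hρc hρi (hρ3' 1) t2, step hadd (hder 0) hρ hρc hρi (hρ3' 0) t1, e0]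
  congr 1
  funext y
  simp only [hconst y, Pi.smul_apply, smul_eq_mul]
  ring

/-- **(P)** a functional on the test functions of the half space which vanishes on all derivatives
is a multiple of the integral -/
theorem exists_const (L : (M4 → ℂ) → ℂ)
    (hadd : ∀ G G', Tf {y | 0 < y 3} G → Tf {y | 0 < y 3} G' → L (G + G') = L G + L G')
    (hsmul : ∀ (c : ℂ) G, Tf {y | 0 < y 3} G → L (c • G) = c * L G)
    (hder : ∀ (j : Fin 4) G, Tf {y | 0 < y 3} G →
      L (fun y => fderiv ℝ G y (EuclideanSpace.single j 1)) = 0) :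
    ∃ c : ℂ, ∀ G, Tf {y | 0 < y 3} G → L G = c * ∫ y, G y := by
  obtain ⟨ρ, hρ, hρc, hρi, hρ3, hρ0, hρ1⟩ := exists_bump_one
  set Θ : M4 → ℂ := fun y =>
    (ρ (y 0) : ℂ) * ((ρ (y 1) : ℂ) * ((ρ (y 2) : ℂ) * (ρ (y 3) : ℂ))) with hΘ
  have hΘt : Tf HS Θ := tf_theta hρ hρ3
  have hΘi : ∫ y, Θ y ≠ 0 := by
    set θ : M4 → ℝ := fun y => ρ (y 0) * (ρ (y 1) * (ρ (y 2) * ρ (y 3))) with hθ
    have h1 : ∀ y, Θ y = (θ y : ℂ) := fun y => by simp [hΘ, hθ]
    have h2 : ∫ y, Θ y = ((∫ y, θ y : ℝ) : ℂ) := by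
      simp only [h1]; exact integral_complex_ofReal
    have hcont : Continuous θ := by
      have := hρ.continuous
      rw [hθ]; fun_prop
    have hsupp : HasCompactSupport θ := by
      refine hΘt.2.1.mono ?_
      intro y hy
      rw [Function.mem_support] at hy ⊢
      rw [h1]; exact_mod_cast hy
    have hpos : 0 < ∫ y, θ y := by
      refine hcont.integral_pos_of_hasCompactSupport_nonneg_nonzero hsupp ?_
        (x := WithLp.toLp 2 ![1, 1, 1, 1]) ?_
      · intro y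
        exact mul_nonneg (hρ0 _) (mul_nonneg (hρ0 _) (mul_nonneg (hρ0 _) (hρ0 _)))
      · simp [hθ, hρ1]
    rw [h2]
    exact_mod_cast hpos.ne'
  refine ⟨L Θ / ∫ y, Θ y, fun G hG => ?_⟩
  obtain ⟨c, hc⟩ := reduce hρ hρc hρi hρ3 hG
  have h1 : L G = c * L Θ := by rw [hc L hadd hder]; exact hsmul c Θ hΘt
  have h2 : ∫ y, G y = c * ∫ y, Θ y := by
    have h3 := hc (fun G => ∫ y, G y)
      (fun G G' hG hG' => integral_add (tf_integrable hG) (tf_integrable hG'))
      (fun j G hG => integral_deriv_zero hG _)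
    simp only at h3
    rw [h3]
    exact integral_const_mul c Θ
  rw [h1, h2]
  field_simp

/-- **(Z)** a functional which vanishes on the derivatives in the directions `1`, `2` and is odd
under the reflection of these two coordinates is zero -/
theorem zero_even (L : (M4 → ℂ) → ℂ)
    (hadd : ∀ G G', Tf {y | 0 < y 3} G → Tf {y | 0 < y 3} G' → L (G + G') = L G + L G')
    (hsmul : ∀ (c : ℂ) G, Tf {y | 0 < y 3} G → L (c • G) = c * L G)
    (hder : ∀ j ∈ ({1, 2} : Set (Fin 4)), ∀ G, Tf {y | 0 < y 3} G →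
      L (fun y => fderiv ℝ G y (EuclideanSpace.single j 1)) = 0)
    (hodd : ∀ G, Tf {y | 0 < y 3} G →
      L (fun y => G (WithLp.toLp 2 ![y 0, -y 1, -y 2, y 3])) = -L G) :
    ∀ G, Tf {y | 0 < y 3} G → L G = 0 := by
  intro G hG
  obtain ⟨ρ, hρ, hρc, hρi, hρe⟩ := exists_bump_even
  have h3 : ∀ j : Fin 4, j ≠ 3 → (j = 3 → ∀ t, ρ t ≠ 0 → t ∈ Icc (1 / 4 : ℝ) 4) :=
    fun j hj h => absurd h hj
  have t2 : Tf HS (av ρ 2 G) := tf_av hρ hρc (h3 2 (by decide)) hG
  have t1 : Tf HS (av ρ 1 (av ρ 2 G)) := tf_av hρ hρc (h3 1 (by decide)) t2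
  have e1 : L G = L (av ρ 1 (av ρ 2 G)) := by
    rw [step hadd (hder 2 (by simp)) hρ hρc hρi (h3 2 (by decide)) hG,
      step hadd (hder 1 (by simp)) hρ hρc hρi (h3 1 (by decide)) t2]
  set F2 : M4 → ℂ := lin volume (ee 2) G with hF2
  set F1 : M4 → ℂ := lin volume (ee 1) F2 with hF1
  have i22 : Inv 2 F2 := inv_lin 2 G
  have i21 : Inv 2 F1 := inv_lin_of i22 1
  have i11 : Inv 1 F1 := inv_lin 1 F2
  have e2 : av ρ 2 G = fun y => (ρ (y 2) : ℂ) * F2 y := rfl
  have e3 : av ρ 1 (av ρ 2 G) = fun y => ((ρ (y 1) : ℂ) * (ρ (y 2) : ℂ)) * F1 y := by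
    rw [e2, av_prod (inv_coord ρ (by decide)) F2]
  have hr : ∀ y : M4, (WithLp.toLp 2 ![y 0, -y 1, -y 2, y 3] : M4)
      = y + (-2 * y 1) • ee 1 + (-2 * y 2) • ee 2 := by
    intro y
    ext i
    fin_cases i <;> simp [ee] <;> ring
  have e4 : (fun y : M4 => av ρ 1 (av ρ 2 G) (WithLp.toLp 2 ![y 0, -y 1, -y 2, y 3]))
      = av ρ 1 (av ρ 2 G) := by
    rw [e3]
    funext y
    have h5 : F1 (WithLp.toLp 2 ![y 0, -y 1, -y 2, y 3]) = F1 y := by
      rw [hr y, i21, i11]
    simp only [h5]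
    simp [hρe]
  have h6 := hodd _ t1
  rw [e4] at h6
  rw [e1]
  have h7 : (2 : ℂ) * L (av ρ 1 (av ρ 2 G)) = 0 := by linear_combination h6
  simpa using h7

end Vale.Agent.P352.H283
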