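import Mathlib

/-!
# P352 (helper283): integrals of test functions along lines

For `G` smooth with compact support and `e ≠ 0`, the functions `y ↦ ∫ t, G (y + t • e)` and
`y ↦ ∫ t in Ioi 0, G (y + t • e)` are smooth; primitives in the direction `e`.
-/

open MeasureTheory Set Function Filter Topology
open scoped ContDiff Convolution

noncomputable section

namespace Vale.Agent.P352.H283

section General

variable {E : Type} [NormedAddCommGroup E] [NormedSpace ℝ E]

/-- the integral of `G` along the line through `y` with direction `e`, for the measure `σ` -/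
def lin (σ : Measure ℝ) (e : E) (G : E → ℂ) (y : E) : ℂ := ∫ t, G (y + t • e) ∂σ

theorem isClosedEmbedding_line {e : E} (he : e ≠ 0) :
    Topology.IsClosedEmbedding (fun t : ℝ => -(t • e)) := by
  have h1 : Topology.IsClosedEmbedding (fun t : ℝ => t • e) := isClosedEmbedding_smul_left he
  exact (Homeomorph.neg E).isClosedEmbedding.comp h1

variable [FiniteDimensional ℝ E] [MeasurableSpace E] [BorelSpace E]

theorem contDiff_lin (σ : Measure ℝ) [IsLocallyFiniteMeasure σ] {e : E} (he : e ≠ 0)
    {G : E → ℂ} (hG : ContDiff ℝ ∞ G) (hc : HasCompactSupport G) :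
    ContDiff ℝ ∞ (lin σ e G) := by
  have hce := isClosedEmbedding_line he
  set μ : Measure E := σ.map (fun t : ℝ => -(t • e)) with hμ
  have hlf : IsLocallyFiniteMeasure μ := by
    refine ⟨fun x => ?_⟩
    refine ⟨Metric.closedBall x 1, Metric.closedBall_mem_nhds x one_pos, ?_⟩
    rw [hμ, hce.measurableEmbedding.map_apply]
    exact (hce.isCompact_preimage (isCompact_closedBall x 1)).measure_lt_top
  have hloc : LocallyIntegrable (fun _ : E => (1 : ℝ)) μ := locallyIntegrable_const 1
  have h := hc.contDiff_convolution_right (n := ⊤) (ContinuousLinearMap.lsmul ℝ ℝ) hloc hG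
  have heq : lin σ e G = ((fun _ : E => (1 : ℝ)) ⋆[ContinuousLinearMap.lsmul ℝ ℝ, μ] G) := by
    funext y
    rw [convolution_def, hμ, hce.measurableEmbedding.integral_map]
    simp [lin]
  rw [heq]
  exact h

/-- functions on a line -/
theorem comp_line {e : E} (he : e ≠ 0) {G : E → ℂ} (hG : Continuous G)
    (hc : HasCompactSupport G) (y : E) :
    Continuous (fun t : ℝ => G (y + t • e)) ∧ HasCompactSupport (fun t : ℝ => G (y + t • e)) := by
  refine ⟨by fun_prop, ?_⟩
  have h1 : Topology.IsClosedEmbedding (fun t : ℝ => t • e) := isClosedEmbedding_smul_left he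
  have h2 : Topology.IsClosedEmbedding (fun t : ℝ => y + t • e) :=
    (Homeomorph.addLeft y).isClosedEmbedding.comp h1
  exact hc.comp_isClosedEmbedding h2

theorem lin_shift (e : E) (G : E → ℂ) (y : E) (s : ℝ) :
    lin volume e G (y + s • e) = lin volume e G y := by
  unfold lin
  have h : ∀ t : ℝ, y + s • e + t • e = y + (t + s) • e := fun t => by
    rw [add_smul]; abel
  simp only [h]
  exact integral_add_right_eq_self (fun t => G (y + t • e)) s

theorem hasFDerivAt_half {e : E} (he : e ≠ 0) {G : E → ℂ} (hG : ContDiff ℝ ∞ G)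
    (hc : HasCompactSupport G) (y : E) :
    fderiv ℝ (lin (volume.restrict (Ioi 0)) e G) y e = -G y := by
  have h1 : DifferentiableAt ℝ (lin (volume.restrict (Ioi 0)) e G) y :=
    (contDiff_lin _ he hG hc).differentiable (by simp) y
  have h2 : HasDerivAt (fun s : ℝ => lin (volume.restrict (Ioi 0)) e G (y + s • e))
      (fderiv ℝ (lin (volume.restrict (Ioi 0)) e G) y e) 0 := by
    have h3 : HasDerivAt (fun s : ℝ => y + s • e) e 0 := by
      have := ((hasDerivAt_id (0 : ℝ)).smul_const e).const_add y
      simpa using this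
    have h4 : HasFDerivAt (lin (volume.restrict (Ioi 0)) e G)
        (fderiv ℝ (lin (volume.restrict (Ioi 0)) e G) y) (y + (0 : ℝ) • e) := by
      rw [zero_smul, add_zero]; exact h1.hasFDerivAt
    exact h4.comp_hasDerivAt (0 : ℝ) h3
  obtain ⟨hcont, hcs⟩ := comp_line he hG.continuous hc y
  have hint : Integrable (fun t : ℝ => G (y + t • e)) := hcont.integrable_of_hasCompactSupport hcs
  have h5 : (fun s : ℝ => lin (volume.restrict (Ioi 0)) e G (y + s • e)) =
      fun s => (∫ t in Ioi (0 : ℝ), G (y + t • e)) - ∫ t in (0 : ℝ)..s, G (y + t • e) := by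
    funext s
    have h6 : lin (volume.restrict (Ioi 0)) e G (y + s • e) = ∫ t in Ioi s, G (y + t • e) := by
      have h7 : ∀ t : ℝ, y + s • e + t • e = y + (t + s) • e := fun t => by
        rw [add_smul]; abel
      simp only [lin, h7]
      have := (measurePreserving_add_right (volume : Measure ℝ) s).setIntegral_preimage_emb
        (measurableEmbedding_addRight s) (fun t => G (y + t • e)) (Ioi s)
      rwa [show (fun t : ℝ => t + s) ⁻¹' Ioi s = Ioi 0 by ext; simp] at this
    have h8 := intervalIntegral.integral_Ioi_sub_Ioi' (a := (0 : ℝ)) (b := s)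
      hint.integrableOn hint.integrableOn
    rw [h6, ← h8]
    ring
  rw [h5] at h2
  have h8 : HasDerivAt (fun s : ℝ => (∫ t in Ioi (0 : ℝ), G (y + t • e))
      - ∫ t in (0 : ℝ)..s, G (y + t • e)) (-G (y + (0 : ℝ) • e)) 0 := by
    have := (intervalIntegral.integral_hasDerivAt_right
      (hcont.intervalIntegrable 0 0) (hcont.stronglyMeasurableAtFilter _ _)
      hcont.continuousAt)
    have h9 := this.const_sub (∫ t in Ioi (0 : ℝ), G (y + t • e))
    simpa using h9
  rw [h2.unique h8, zero_smul, add_zero]

end General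

end Vale.Agent.P352.H283
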